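import Crest.Agent.R269.H.Br

/-!
# Row 269, block H: change of variables (sub-owner helper97)

`exists_vol`: `map (TT n).symm volume` is an additive Haar measure (`ContinuousLinearEquiv.isAddHaarMeasure_map` after
`restrictScalars ℝ`), `Measure.isAddLeftInvariant_eq_smul`.
`ae`, `l2bd`: `R271.T1.exists_part` gives countably many disjoint measurable pieces `s i ⊆ (e i).source` covering `M`;
`IsCh.measure_eq`, `IsCh.lintegral_eq`.  For `l2bd` put `V i = V ∩ ι ⁻¹' s i` (measurable, disjoint, union `V`), apply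
`lintegral_image_eq_lintegral_abs_det_fderiv_mul` to `π ∘ ι` on `V i` (injective there since `π` is injective on the source) and
the function `H ∘ (dn (e i)).symm`; `(π ∘ ι) '' V i ⊆ π '' s i`; real determinant: `LinearMap.det_restrictScalars`,
`Algebra.norm_complex_apply`.  No measurability of the integrand is needed.
-/

set_option autoImplicit false
set_option linter.unusedSectionVars false
set_option linter.unusedVariables false

open MeasureTheory Filter Topology Set
open scoped ENNReal NNReal ContDiff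

noncomputable section

namespace Crest.Agent.R269.H

open Crest.Agent.R271 (Dom E)

theorem exists_vol (n : ℕ) : ∃ c : ℝ≥0, 0 < c ∧ (volume : Measure (Cn n)) = c • Measure.map (TT n).symm volume := by
  have : (Measure.map (TT n).symm volume).IsAddHaarMeasure := (TT n).symm.isAddHaarMeasure_map volume
  exact ⟨_, Measure.addHaarScalarFactor_pos_of_isAddHaarMeasure _ _, Measure.isAddLeftInvariant_eq_smul _ _⟩

theorem emb (n : ℕ) : MeasurableEmbedding (TT n).symm := (TT n).symm.toHomeomorph.measurableEmbedding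

variable {n : ℕ} {D : RDom n} [MeasurableSpace D.M] [BorelSpace D.M] {D' : Dom n D.M}

theorem Md.ae (h : Md D D') {W : Set D.M} {P : D.M → Prop}
    (hP : ∀ e, D.IsCh e → ∀ᵐ w, w ∈ e.target ∩ e.symm ⁻¹' W → P (e.symm w)) : ∀ᵐ y ∂D'.μ, y ∈ W → P y := by
  obtain ⟨c, hc, hv⟩ := exists_vol n
  obtain ⟨ι, _, e, s, he, -, hs, -, hU⟩ := R271.T1.exists_part D'.loc
  have hch : ∀ i, D'.IsCh (e i) := fun i y _ => by rw [he]
  rw [ae_iff, ← inter_univ {a | _}, ← hU, inter_iUnion]
  refine measure_iUnion_null fun i => ?_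
  rw [(hch i).measure_eq (inter_subset_right.trans (hs i))]
  have h1 := hP _ (h.dn (hch i))
  rw [ae_iff, hv, Measure.smul_apply, smul_eq_zero, (emb n).map_apply] at h1
  refine measure_mono_null ?_ (h1.resolve_left hc.ne')
  rintro _ ⟨y, ⟨hy, hy'⟩, rfl⟩ h2
  simp only [mem_inter_iff, dn_target, mem_preimage, dn_symm, ContinuousLinearEquiv.apply_symm_apply,
    (hch i).symm_p (hs i hy')] at h2
  exact hy fun hW => h2 ⟨(hch i).target (hs i hy'), hW⟩

theorem Md.lint (h : Md D D') {c : ℝ≥0} (hv : (volume : Measure (Cn n)) = c • Measure.map (TT n).symm volume)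
    {e : OpenPartialHomeomorph D.M (E n)} (he : D'.IsCh e) {A : Set D.M} (hA : MeasurableSet A) (hAe : A ⊆ e.source)
    (G : D.M → ℝ≥0∞) : ∫⁻ w in D.π '' A, G ((H.dn e).symm w) = c * ∫⁻ y in A, G y ∂D'.μ := by
  have h1 : (TT n).symm ⁻¹' (D.π '' A) = D'.p '' A := by
    ext z
    simp only [mem_preimage, mem_image, h _, ContinuousLinearEquiv.eq_symm_apply]
  rw [he.lintegral_eq hA hAe, hv, Measure.restrict_smul, lintegral_smul_measure, (emb n).restrict_map,
    (emb n).lintegral_map, h1]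
  simp only [dn_symm, ContinuousLinearEquiv.apply_symm_apply]
  rfl

theorem det_real (L : Cn n →L[ℂ] Cn n) :
    |(L.restrictScalars ℝ).det| = ‖LinearMap.det (L : Cn n →ₗ[ℂ] Cn n)‖ ^ 2 := by
  have h1 : (L.restrictScalars ℝ).det = LinearMap.det ((L : Cn n →ₗ[ℂ] Cn n).restrictScalars ℝ) := rfl
  rw [h1, LinearMap.det_restrictScalars, Algebra.norm_complex_apply, abs_of_nonneg (Complex.normSq_nonneg _),
    Complex.normSq_eq_norm_sq]

theorem Md.l2bd (h : Md D D') : ∃ c : ℝ, ∀ (f : D.M → ℂ) (φ : D.M → ℝ) (C : ℝ),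
    ∫⁻ y, ENNReal.ofReal (‖f y‖ ^ 2 * Real.exp (-φ y)) ∂D'.μ ≤ ENNReal.ofReal C → D.L2Bd f φ (c * C) := by
  obtain ⟨c, hc, hv⟩ := exists_vol n
  obtain ⟨κ, _, e, s, he, hm, hs, hd, hU⟩ := R271.T1.exists_part D'.loc
  have hch : ∀ i, D'.IsCh (e i) := fun i y _ => by rw [he]
  refine ⟨c, fun f φ C hC V ι hV hι hinj hdif => ?_⟩
  have hVm : ∀ i, MeasurableSet (V ∩ ι ⁻¹' s i) := fun i => by
    have := hV.measurableSet.subtype_image ((continuousOn_iff_continuous_domRestrict.1 hι).measurable (hm i))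
    convert this using 1
    ext w
    simp [and_comm]
  have hVU : V = ⋃ i, V ∩ ι ⁻¹' s i := by rw [← inter_iUnion, ← preimage_iUnion, hU, preimage_univ, inter_univ]
  have hsy : ∀ i, ∀ y ∈ s i, (H.dn (e i)).symm (D.π y) = y := fun i y hy => by
    rw [dn_symm, ← h, (hch i).symm_p (hs i hy)]
  calc _ = ∑' i, ∫⁻ w in V ∩ ι ⁻¹' s i, ENNReal.ofReal (‖f (ι w)‖ ^ 2 * Real.exp (-φ (ι w)) *
        ‖LinearMap.det (fderiv ℂ (D.π ∘ ι) w : Cn n →ₗ[ℂ] Cn n)‖ ^ 2) := by
        rw [← lintegral_iUnion hVm fun i j hij => ((hd hij).preimage ι).mono inter_subset_right inter_subset_right, ← hVU]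
    _ ≤ ∑' i, c * ∫⁻ y in s i, ENNReal.ofReal (‖f y‖ ^ 2 * Real.exp (-φ y)) ∂D'.μ := by
        refine ENNReal.tsum_le_tsum fun i => ?_
        rw [← h.lint hv (hch i) (hm i) (hs i)]
        refine le_trans (le_of_eq ?_) (lintegral_mono_set (s := (D.π ∘ ι) '' (V ∩ ι ⁻¹' s i)) ?_)
        · rw [lintegral_image_eq_lintegral_abs_det_fderiv_mul volume (hVm i)
            (f' := fun w => (fderiv ℂ (D.π ∘ ι) w).restrictScalars ℝ)
            (fun w hw => ((hdif.differentiableAt (hV.mem_nhds hw.1)).hasFDerivAt.restrictScalars ℝ).hasFDerivWithinAt)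
            fun a ha b hb hab => hinj ha.1 hb.1 (by rw [← hsy i _ ha.2, ← hsy i _ hb.2]; exact congrArg _ hab)]
          refine setLIntegral_congr_fun (hVm i) fun w hw => ?_
          simp only [Function.comp_apply, hsy i _ hw.2, det_real]
          rw [ENNReal.ofReal_mul (by positivity), mul_comm]
        · rintro _ ⟨w, hw, rfl⟩
          exact ⟨ι w, hw.2, rfl⟩
    _ ≤ _ := by
        rw [ENNReal.tsum_mul_left, ← lintegral_iUnion hm hd, hU, Measure.restrict_univ,
          ENNReal.ofReal_mul c.coe_nonneg, ENNReal.ofReal_coe_nnreal]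
        gcongr

end Crest.Agent.R269.H
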