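import Crest.Agent.R271.H.Main

/-!
# Row 269, block H: Hörmander's estimate for weights defined on sublevel sets, limits (sub-owner helper97)

All statements are about an `R271.Dom`; calculus API in `R271/H/Calc.lean`, `R271/H/Meas.lean`, model proofs in `R271/H/Lim.lean`,
`R271/H/Wt.lean`.
-/

set_option autoImplicit false
set_option linter.unusedSectionVars false
set_option linter.unusedVariables false

open MeasureTheory Filter Topology Set
open scoped ENNReal ContDiff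

noncomputable section

namespace Crest.Agent.R269.H

open Crest.Agent.R271

variable {n : ℕ} {M : Type} [TopologicalSpace M] [T2Space M] [SecondCountableTopology M] [MeasurableSpace M]
  [BorelSpace M] {D : Dom n M}

theorem exists_chi {C : ℝ} (t : ℝ) (hC : 0 ≤ C) : ∃ χ : ℝ → ℝ, ContDiff ℝ ∞ χ ∧ (∀ s, 0 ≤ deriv χ s) ∧
    (∀ s, 0 ≤ deriv (deriv χ) s) ∧ (∀ s ≤ t, χ s = 0) ∧ ∀ s, t + 1 ≤ s → C ≤ deriv χ s := by
  have hg : ContDiff ℝ ∞ fun s : ℝ => C * Real.smoothTransition (s - t) :=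
    contDiff_const.mul (Real.smoothTransition.contDiff.comp (contDiff_id.sub contDiff_const))
  have hgc := hg.continuous
  have hd : ∀ s, HasDerivAt (fun s => ∫ u in t..s, C * Real.smoothTransition (u - t))
      (C * Real.smoothTransition (s - t)) s := fun s =>
    intervalIntegral.integral_hasDerivAt_right (hgc.intervalIntegrable _ _)
      (hgc.stronglyMeasurableAtFilter _ _) hgc.continuousAt
  have hde : deriv (fun s => ∫ u in t..s, C * Real.smoothTransition (u - t)) =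
      fun s => C * Real.smoothTransition (s - t) := funext fun s => (hd s).deriv
  refine ⟨fun s => ∫ u in t..s, C * Real.smoothTransition (u - t), ?_, fun s => ?_, fun s => ?_, fun s hs => ?_,
    fun s hs => ?_⟩
  · rw [contDiff_infty_iff_deriv, hde]
    exact ⟨fun s => (hd s).differentiableAt, hg⟩
  · rw [hde]
    exact mul_nonneg hC (Real.smoothTransition.nonneg _)
  · rw [hde]
    refine Monotone.deriv_nonneg fun a b hab => ?_
    exact mul_le_mul_of_nonneg_left (Real.smoothTransition.monotone (by linarith)) hC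
  · simp only
    rw [intervalIntegral.integral_congr (g := fun _ => (0 : ℝ))]
    · simp
    · intro u hu
      rw [uIcc_of_ge hs] at hu
      simp only
      rw [Real.smoothTransition.zero_of_nonpos (by linarith [hu.2]), mul_zero]
  · rw [hde]
    simp only
    rw [Real.smoothTransition.one_of_one_le (by linarith), mul_one]

theorem levi_lb {φ : M → ℝ} (h : D.Sm φ) {K : Set M} (hK : IsCompact K) :
    ∃ C : ℝ, 0 ≤ C ∧ ∀ y ∈ K, ∀ ξ, -(C * ‖ξ‖ ^ 2) ≤ D.levi φ y ξ := by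
  obtain ⟨C, hC⟩ := (hK.prod (isCompact_sphere (0 : E n) 1)).exists_bound_of_continuousOn
    (Dom.levi_cont h).continuousOn
  refine ⟨max C 0, le_max_right _ _, fun y hy ξ => ?_⟩
  rcases eq_or_ne ξ 0 with rfl | h0
  · have := Dom.levi_smul h y 0 0
    simp only [zero_smul] at this
    rw [this]
    simp
  have hn : ‖ξ‖ ≠ 0 := norm_ne_zero_iff.2 h0
  have h1 := hC (y, ‖ξ‖⁻¹ • ξ) ⟨hy, by simp [norm_smul, hn]⟩
  have h2 := Dom.levi_smul h y ‖ξ‖ (‖ξ‖⁻¹ • ξ)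
  rw [smul_inv_smul₀ hn] at h2
  rw [h2]
  have h3 := (abs_le.1 (h1.trans (le_max_left C 0))).1
  nlinarith [sq_nonneg ‖ξ‖]

/-- Globalisation of a weight.  `β = smoothTransition (t + 3 - ρ)`, `Ψ₀ = β Φ` is smooth (`CD.mul` where `ρ ≤ t + 3`, locally `0`
elsewhere), `levi Ψ₀ ≥ -C ‖ξ‖²` on the compact set `ρ ≤ t + 3` (`levi_cont` on `K ×ˢ sphere`, `levi_smul`), `levi Ψ₀ = levi Φ` for
`ρ < t + 2` and `= 0` for `ρ > t + 3` (`levi_congr`).  `Ψ = Ψ₀ + χ ∘ ρ`, `χ s = ∫ u in t..s, C * smoothTransition (u - t)` (smooth, `χ' ≥ 0`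
monotone, `χ' = C` on `[t + 1, ∞)`, `χ = 0` on `(-∞, t]`; cf. `R271/H/Wt.lean`), `levi_add`, `levi_comp`. -/
theorem glob {ρ Φ : M → ℝ} (hρ : D.Sm ρ) (hρ1 : ∀ y ξ, ‖ξ‖ ^ 2 ≤ D.levi ρ y ξ) (hK : ∀ r, IsCompact {y | ρ y ≤ r})
    {t : ℝ} (hΦ : ∀ y, ρ y ≤ t + 3 → D.CD ∞ Φ y ∧ ∀ ξ, 0 ≤ D.levi Φ y ξ) :
    ∃ Ψ, D.Psh Ψ ∧ ∀ y, ρ y ≤ t → Ψ y = Φ y := by
  have hβ : D.Sm fun y => Real.smoothTransition (t + 3 - ρ y) :=
    ((Dom.sm_const _).sub hρ).comp Real.smoothTransition.contDiff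
  have hz : ∀ y, t + 3 < ρ y → (fun y => Real.smoothTransition (t + 3 - ρ y) * Φ y) =ᶠ[𝓝 y] fun y => 0 * ρ y := by
    intro y hy
    filter_upwards [(isOpen_lt continuous_const hρ.continuous).mem_nhds hy] with x (hx : t + 3 < ρ x)
    rw [Real.smoothTransition.zero_of_nonpos (by linarith), zero_mul, zero_mul]
  have h0 : D.Sm fun y => Real.smoothTransition (t + 3 - ρ y) * Φ y := fun y => by
    rcases le_or_gt (ρ y) (t + 3) with hy | hy
    · exact (hβ.cd y).mul (hΦ y hy).1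
    · exact (((Dom.sm_const 0).mul hρ).cd y).congr (hz y hy)
  obtain ⟨C, hC, hC'⟩ := levi_lb h0 (hK (t + 3))
  obtain ⟨χ, hχ, h1, h2, h3, h4⟩ := exists_chi t hC
  refine ⟨fun y => Real.smoothTransition (t + 3 - ρ y) * Φ y + χ (ρ y), ⟨h0.add (hρ.comp hχ), fun y ξ => ?_⟩,
    fun y hy => ?_⟩
  · rw [Dom.levi_add h0 (hρ.comp hχ), Dom.levi_comp hρ hχ]
    have k1 := mul_le_mul_of_nonneg_left (hρ1 y ξ) (h1 (ρ y))
    have k2 := mul_nonneg (h2 (ρ y)) (sq_nonneg ‖D.db (fun x => (ρ x : ℂ)) y ξ‖)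
    have k3 := mul_nonneg (h1 (ρ y)) (sq_nonneg ‖ξ‖)
    rcases lt_or_ge (ρ y) (t + 2) with hy | hy
    · have : (fun y => Real.smoothTransition (t + 3 - ρ y) * Φ y) =ᶠ[𝓝 y] Φ := by
        filter_upwards [(isOpen_lt hρ.continuous continuous_const).mem_nhds hy] with x (hx : ρ x < t + 2)
        rw [Real.smoothTransition.one_of_one_le (by linarith), one_mul]
      rw [Dom.levi_congr this]
      linarith [(hΦ y (by linarith)).2 ξ]
    rcases le_or_gt (ρ y) (t + 3) with hy' | hy'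
    · have k4 := mul_le_mul_of_nonneg_right (h4 (ρ y) (by linarith)) (sq_nonneg ‖ξ‖)
      linarith [hC' y hy' ξ]
    · rw [Dom.levi_congr (hz y hy'), Dom.levi_mul hρ]
      linarith
  · simp only
    rw [Real.smoothTransition.one_of_one_le (by linarith), one_mul, h3 _ hy, add_zero]

/-- `stHor` for the weight of `glob`, `h = K.indicator S`. -/
theorem step1 {ρ Φ : M → ℝ} (hρ : D.Sm ρ) (hρ1 : ∀ y ξ, ‖ξ‖ ^ 2 ≤ D.levi ρ y ξ) (hK : ∀ r, IsCompact {y | ρ y ≤ r})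
    {g : M → ℂ} (hg : D.Sm g) (hgc : HasCompactSupport g) {K : Set M} (hKc : IsCompact K) {S B t : ℝ} (hS : 0 ≤ S)
    (hKt : ∀ y ∈ K, ρ y < t) (hΦ : ∀ y, ρ y ≤ t + 3 → D.CD ∞ Φ y ∧ ∀ ξ, 0 ≤ D.levi Φ y ξ)
    (h1 : ∀ y ∈ K, -B ≤ Φ y ∧ ∀ ξ, ‖D.db g y ξ‖ ^ 2 ≤ S * D.levi Φ y ξ) (h0 : ∀ y, y ∉ K → ∀ ξ, D.db g y ξ = 0) :
    ∃ F, D.Hol F ∧ ∫⁻ y in {y | ρ y ≤ t}, ENNReal.ofReal (‖g y - F y‖ ^ 2 * Real.exp (-Φ y)) ∂D.μ ≤
      ENNReal.ofReal (S * Real.exp B * (D.μ K).toReal) := by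
  obtain ⟨Ψ, hΨ, hΨ'⟩ := glob hρ hρ1 hK hΦ
  have := D.finCpt
  have hc := hΨ.1.continuous
  have hgc' := hg.continuous
  obtain ⟨F, hF, hF'⟩ := stHor n M D ρ ⟨hρ, fun y ξ hξ => lt_of_lt_of_le (by positivity) (hρ1 y ξ)⟩ hK Ψ g
    (K.indicator fun _ => S) hΨ hg (measurable_const.indicator hKc.measurableSet)
    (fun y => indicator_nonneg (fun _ _ => hS) y) (fun y ξ => by
      by_cases hy : y ∈ K
      · have : Ψ =ᶠ[𝓝 y] Φ := by
          filter_upwards [(isOpen_lt hρ.continuous continuous_const).mem_nhds (hKt y hy)] with x (hx : ρ x < t)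
          exact hΨ' x hx.le
        rw [indicator_of_mem hy, Dom.levi_congr this]
        exact (h1 y hy).2 ξ
      · simp [indicator_of_notMem hy, h0 y hy ξ])
    (Dom.integrable_of_cont (by fun_prop) ((hgc.comp_left (g := fun z : ℂ => ‖z‖ ^ 2) (by simp)).mul_right)).lintegral_lt_top.ne
  refine ⟨F, hF, ?_⟩
  calc _ = ∫⁻ y in {y | ρ y ≤ t}, ENNReal.ofReal (‖g y - F y‖ ^ 2 * Real.exp (-Ψ y)) ∂D.μ :=
        setLIntegral_congr_fun (hK t).measurableSet fun y hy => by simp only [hΨ' y hy]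
    _ ≤ _ := setLIntegral_le_lintegral _ _
    _ ≤ _ := hF'
    _ ≤ ∫⁻ y, K.indicator (fun _ => ENNReal.ofReal (S * Real.exp B)) y ∂D.μ := by
        refine lintegral_mono fun y => ?_
        by_cases hy : y ∈ K
        · simp only [indicator_of_mem hy, hΨ' y (hKt y hy).le]
          exact ENNReal.ofReal_le_ofReal (mul_le_mul_of_nonneg_left (Real.exp_le_exp.2 (by linarith [(h1 y hy).1])) hS)
        · simp [indicator_of_notMem hy]
    _ = _ := by
        rw [lintegral_indicator_const hKc.measurableSet, ENNReal.ofReal_mul (p := S * Real.exp B) (by positivity),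
          ENNReal.ofReal_toReal hKc.measure_lt_top.ne]

theorem hol_cont {F : M → ℂ} (hF : D.Hol F) : Continuous F :=
  continuous_iff_continuousAt.2 fun y => (Dom.dif_of_hol (hF y trivial)).continuousAt

theorem l2_le {g F : M → ℂ} (hg : Continuous g) {φ : M → ℝ} {U : Set M} (hU : MeasurableSet U) {S : ℝ}
    (hS : ∀ x ∈ U, φ x ≤ S) :
    ∫⁻ x in U, ENNReal.ofReal (‖F x‖ ^ 2) ∂D.μ ≤ 2 * ∫⁻ x in U, ENNReal.ofReal (‖g x‖ ^ 2) ∂D.μ +
      ENNReal.ofReal (2 * Real.exp S) * ∫⁻ x in U, ENNReal.ofReal (‖g x - F x‖ ^ 2 * Real.exp (-φ x)) ∂D.μ := by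
  rw [← lintegral_const_mul' _ _ ENNReal.ofNat_ne_top, ← lintegral_const_mul' _ _ ENNReal.ofReal_ne_top,
    ← lintegral_add_left (by fun_prop)]
  refine setLIntegral_mono' hU fun x hx => ?_
  rw [← ENNReal.ofReal_mul (by positivity), ← ENNReal.ofReal_ofNat, ← ENNReal.ofReal_mul (by positivity),
    ← ENNReal.ofReal_add (by positivity) (by positivity)]
  refine ENNReal.ofReal_le_ofReal ?_
  have h2 : 1 ≤ Real.exp S * Real.exp (-φ x) := by
    rw [← Real.exp_add]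
    exact Real.one_le_exp (by linarith [hS x hx])
  have h3 : ‖F x‖ ≤ ‖g x‖ + ‖g x - F x‖ := by
    simpa using norm_sub_le (g x) (g x - F x)
  have h4 : ‖F x‖ ^ 2 ≤ 2 * (‖g x‖ ^ 2 + ‖g x - F x‖ ^ 2) := by
    nlinarith [norm_nonneg (F x), sq_nonneg (‖g x‖ - ‖g x - F x‖)]
  nlinarith [mul_le_mul_of_nonneg_left h2 (show 0 ≤ 2 * ‖g x - F x‖ ^ 2 by positivity)]

/-- From smooth weights to the limit weight, without Montel.  `∫_U |F|² ≤ 2 ∫ |g|² + 2 e^A I =: B²` for all the `F = F_k`, so by `stMV` and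
compactness of `L` (`IsCompact.induction_on` or `elim_nhds_subcover`) `‖g - F‖ ≤ C` on `L` with `C` independent of `k`.  Then
`|g - F|² e^{-φ} ≤ |g - F|² e^{-Φ k} + C² |e^{-φ} - e^{-Φ k}|` on `L`, and `∫_L ofReal |e^{-φ} - e^{-Φ k}| → 0` by dominated convergence
(`tendsto_lintegral_of_dominated_convergence'`, bound `2 e^A` a.e., `μ L < ∞` by `finCpt`). -/
theorem step2 {g : M → ℂ} (hg : Continuous g) (hgc : HasCompactSupport g) {L U : Set M} (hL : IsCompact L)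
    (hU : IsOpen U) (hLU : L ⊆ U) {Φ : ℕ → M → ℝ} {φ : M → ℝ} {A : ℝ} (hΦ : ∀ k, ContinuousOn (Φ k) U)
    (hA : ∀ k, ∀ y ∈ U, |Φ k y| ≤ A) (hφ : Measurable φ)
    (hlim : ∀ᵐ y ∂D.μ, y ∈ U → Tendsto (fun k => Φ k y) atTop (𝓝 (φ y))) {I : ℝ} (hI : 0 ≤ I)
    (hF : ∀ᶠ k in atTop, ∃ F, D.Hol F ∧
      ∫⁻ y in U, ENNReal.ofReal (‖g y - F y‖ ^ 2 * Real.exp (-Φ k y)) ∂D.μ ≤ ENNReal.ofReal I)
    {ε : ℝ} (hε : 0 < ε) :
    ∃ F, D.Hol F ∧ ∫⁻ y in L, ENNReal.ofReal (‖g y - F y‖ ^ 2 * Real.exp (-φ y)) ∂D.μ ≤ ENNReal.ofReal (I + ε) := by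
  have := D.finCpt
  have hg2 : ∫⁻ x in U, ENNReal.ofReal (‖g x‖ ^ 2) ∂D.μ ≠ ⊤ := by
    have h1 : Integrable (fun x => ‖g x‖ ^ 2) D.μ :=
      Dom.integrable_of_cont (by fun_prop) (hgc.comp_left (g := fun z : ℂ => ‖z‖ ^ 2) (by simp))
    exact ((setLIntegral_le_lintegral _ _).trans_lt h1.lintegral_lt_top).ne
  obtain ⟨B, hB0, hB⟩ : ∃ B : ℝ, 0 ≤ B ∧ 2 * ∫⁻ x in U, ENNReal.ofReal (‖g x‖ ^ 2) ∂D.μ +
      ENNReal.ofReal (2 * Real.exp A) * ENNReal.ofReal I ≤ ENNReal.ofReal (B ^ 2) := by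
    have key : ∀ a : ℝ≥0∞, a ≠ ⊤ → ∃ B : ℝ, 0 ≤ B ∧ a ≤ ENNReal.ofReal (B ^ 2) := fun a ha =>
      ⟨√a.toReal, Real.sqrt_nonneg _, by rw [Real.sq_sqrt ENNReal.toReal_nonneg, ENNReal.ofReal_toReal ha]⟩
    exact key _ (ENNReal.add_ne_top.2 ⟨ENNReal.mul_ne_top ENNReal.ofNat_ne_top hg2,
      ENNReal.mul_ne_top ENNReal.ofReal_ne_top ENNReal.ofReal_ne_top⟩)
  obtain ⟨C, hC⟩ : ∃ C : ℝ, ∀ F : M → ℂ, D.Hol F →
      ∫⁻ x in U, ENNReal.ofReal (‖F x‖ ^ 2) ∂D.μ ≤ ENNReal.ofReal (B ^ 2) → ∀ y ∈ L, ‖F y‖ ≤ C := by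
    refine hL.induction_on (p := fun L => ∃ C : ℝ, ∀ F : M → ℂ, D.Hol F →
      ∫⁻ x in U, ENNReal.ofReal (‖F x‖ ^ 2) ∂D.μ ≤ ENNReal.ofReal (B ^ 2) → ∀ y ∈ L, ‖F y‖ ≤ C) ⟨0, by simp⟩
      (fun s t hst ⟨C, hC⟩ => ⟨C, fun F h1 h2 y hy => hC F h1 h2 y (hst hy)⟩)
      (fun s t ⟨C, hC⟩ ⟨C', hC'⟩ => ⟨max C C', fun F h1 h2 y hy => hy.elim
        (fun hy => (hC F h1 h2 y hy).trans (le_max_left _ _)) fun hy => (hC' F h1 h2 y hy).trans (le_max_right _ _)⟩)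
      fun y hy => ?_
    obtain ⟨V, hV, C, hC⟩ := stMV n M D y U hU (hLU hy)
    exact ⟨V, mem_nhdsWithin_of_mem_nhds hV, C * B, fun F h1 h2 x hx => (hC F B (fun z _ => h1 z trivial) hB0 h2 x hx).1⟩
  obtain ⟨C', hC'⟩ := hL.exists_bound_of_continuousOn hg.continuousOn
  have hA' : ∀ k, ∀ y ∈ U, Real.exp (-Φ k y) ≤ Real.exp A := fun k y hy =>
    Real.exp_le_exp.2 (by linarith [(abs_le.1 (hA k y hy)).1])
  have hm : ∀ k, AEMeasurable (fun y => ENNReal.ofReal ((C' + C) ^ 2 * |Real.exp (-φ y) - Real.exp (-Φ k y)|))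
      (D.μ.restrict L) := fun k => by
    have := ((hΦ k).mono hLU).aemeasurable (μ := D.μ) hL.measurableSet
    fun_prop
  have hlim' : ∀ᵐ y ∂D.μ.restrict L, y ∈ U ∧ Tendsto (fun k => Φ k y) atTop (𝓝 (φ y)) := by
    filter_upwards [ae_restrict_of_ae hlim, ae_restrict_mem hL.measurableSet] with y h1 h2
    exact ⟨hLU h2, h1 (hLU h2)⟩
  have hT := tendsto_lintegral_of_dominated_convergence' (μ := D.μ.restrict L) (f := fun _ => 0)
    (fun _ => ENNReal.ofReal ((C' + C) ^ 2 * Real.exp A)) hm (fun k => by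
      filter_upwards [hlim'] with y hy
      refine ENNReal.ofReal_le_ofReal (mul_le_mul_of_nonneg_left ?_ (sq_nonneg _))
      have h1 : Real.exp (-φ y) ≤ Real.exp A :=
        le_of_tendsto' (Real.continuous_exp.continuousAt.tendsto.comp hy.2.neg) fun k => hA' k y hy.1
      have h2 := hA' k y hy.1
      exact abs_le.2 ⟨by linarith [Real.exp_pos (-φ y)], by linarith [Real.exp_pos (-Φ k y)]⟩)
    (by
      rw [setLIntegral_const]
      exact ENNReal.mul_ne_top ENNReal.ofReal_ne_top hL.measure_lt_top.ne)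
    (by
      filter_upwards [hlim'] with y hy
      have := ENNReal.tendsto_ofReal ((((tendsto_const_nhds (x := Real.exp (-φ y))).sub
        (Real.continuous_exp.continuousAt.tendsto.comp hy.2.neg)).abs).const_mul ((C' + C) ^ 2))
      simpa using this)
  rw [lintegral_zero] at hT
  obtain ⟨k, ⟨F, hFh, hFb⟩, hk⟩ := (hF.and (hT.eventually_le_const (ENNReal.ofReal_pos.2 hε))).exists
  refine ⟨F, hFh, ?_⟩
  have hFL := hC F hFh (le_trans ((l2_le hg hU.measurableSet fun x hx => (abs_le.1 (hA k x hx)).2).trans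
    (by gcongr)) hB)
  rw [ENNReal.ofReal_add hI hε.le]
  refine le_trans ?_ (add_le_add ((lintegral_mono_set hLU).trans hFb) hk)
  rw [← lintegral_add_right' _ (hm k)]
  refine setLIntegral_mono' hL.measurableSet fun y hy => ?_
  rw [← ENNReal.ofReal_add (by positivity) (by positivity)]
  refine ENNReal.ofReal_le_ofReal ?_
  have h1 : ‖g y - F y‖ ^ 2 ≤ (C' + C) ^ 2 :=
    pow_le_pow_left₀ (norm_nonneg _) ((norm_sub_le _ _).trans (add_le_add (hC' y hy) (hFL y hy))) 2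
  have h2 := mul_le_mul_of_nonneg_right h1 (abs_nonneg (Real.exp (-φ y) - Real.exp (-Φ k y)))
  have h3 := mul_le_mul_of_nonneg_left (le_abs_self (Real.exp (-φ y) - Real.exp (-Φ k y))) (sq_nonneg ‖g y - F y‖)
  linarith

/-- Montel and Fatou; adapt `R271.Dom.hor_limit` (`φ` is bounded above on compact sets: `UpperSemicontinuousOn.bddAbove_of_isCompact`
or `exists_isMaxOn`; it is measurable: `UpperSemicontinuous.measurable`; write the set integrals with `indicator`). -/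
theorem step3 {ρ φ : M → ℝ} (hρ : Continuous ρ) (hK : ∀ r, IsCompact {y | ρ y ≤ r}) (hφ : UpperSemicontinuous φ)
    {g : M → ℂ} (hg : Continuous g) {I : ℝ}
    (hF : ∀ ν : ℕ, ∃ F, D.Hol F ∧
      ∫⁻ y in {y | ρ y ≤ ν}, ENNReal.ofReal (‖g y - F y‖ ^ 2 * Real.exp (-φ y)) ∂D.μ ≤ ENNReal.ofReal I) :
    ∃ G, D.Hol G ∧ ∫⁻ y, ENNReal.ofReal (‖g y - G y‖ ^ 2 * Real.exp (-φ y)) ∂D.μ ≤ ENNReal.ofReal I := by
  choose F hFh hb using hF
  have hFc : ∀ ν, Continuous (F ν) := fun ν => hol_cont (hFh ν)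
  have := D.finCpt
  obtain ⟨s, G, hs, hG, hl⟩ := stMon n M D F hFh fun y => by
    obtain ⟨N, hN⟩ := exists_nat_ge (ρ y + 1)
    obtain ⟨S, hS⟩ := (hφ.upperSemicontinuousOn _).bddAbove_of_isCompact (hK N)
    have hb0 : ∀ {f : M → ℂ}, Continuous f → ∫⁻ x in {x | ρ x ≤ N}, ENNReal.ofReal (‖f x‖ ^ 2) ∂D.μ ≠ ⊤ := fun hf =>
      (setLIntegral_lt_top_of_isCompact (hK N).measure_lt_top.ne (hK N)
        (continuous_real_toNNReal.comp (hf.norm.pow 2))).ne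
    refine ⟨{x | ρ x ≤ N}, mem_of_superset ((isOpen_lt hρ continuous_const).mem_nhds
      (show ρ y < N by linarith)) fun x hx => (le_of_lt hx : ρ x ≤ N),
      (2 * ∫⁻ x in {x | ρ x ≤ N}, ENNReal.ofReal (‖g x‖ ^ 2) ∂D.μ + ENNReal.ofReal (2 * Real.exp S) * ENNReal.ofReal I) +
        ∑ ν ∈ Finset.range N, ∫⁻ x in {x | ρ x ≤ N}, ENNReal.ofReal (‖F ν x‖ ^ 2) ∂D.μ,
      ENNReal.add_ne_top.2 ⟨ENNReal.add_ne_top.2 ⟨ENNReal.mul_ne_top ENNReal.ofNat_ne_top (hb0 hg),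
        ENNReal.mul_ne_top ENNReal.ofReal_ne_top ENNReal.ofReal_ne_top⟩,
        ENNReal.sum_ne_top.2 fun ν _ => hb0 (hFc ν)⟩, fun ν => ?_⟩
    rcases lt_or_ge ν N with h | h
    · exact (Finset.single_le_sum (f := fun ν => ∫⁻ x in {x | ρ x ≤ N}, ENNReal.ofReal (‖F ν x‖ ^ 2) ∂D.μ)
        (fun _ _ => zero_le) (Finset.mem_range.2 h)).trans le_add_self
    refine le_trans ?_ le_self_add
    refine (l2_le (φ := φ) hg (hK N).measurableSet fun x hx => hS (mem_image_of_mem φ hx)).trans ?_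
    gcongr
    exact (lintegral_mono_set fun x (hx : ρ x ≤ N) => (hx.trans (by exact_mod_cast h) : ρ x ≤ ν)).trans (hb ν)
  refine ⟨G, hG, ?_⟩
  have h1 : ∀ x, liminf (fun ν => {y | ρ y ≤ s ν}.indicator
      (fun x => ENNReal.ofReal (‖g x - F (s ν) x‖ ^ 2 * Real.exp (-φ x))) x) atTop =
      ENNReal.ofReal (‖g x - G x‖ ^ 2 * Real.exp (-φ x)) := fun x => by
    refine Tendsto.liminf_eq ?_
    have h2 := ENNReal.tendsto_ofReal ((((tendsto_const_nhds (x := g x)).sub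
      ((tendstoLocallyUniformlyOn_univ.2 hl).tendsto_at (mem_univ x))).norm.pow 2).mul_const (Real.exp (-φ x)))
    refine h2.congr' ?_
    filter_upwards [(tendsto_natCast_atTop_atTop (R := ℝ).comp hs.tendsto_atTop).eventually_ge_atTop (ρ x)] with ν hν
    rw [indicator_of_mem (show x ∈ {y | ρ y ≤ s ν} from hν)]
  simp only [← h1]
  refine (lintegral_liminf_le fun ν => ?_).trans ?_
  · have := hFc (s ν)
    have := hφ.measurable
    exact Measurable.indicator (by fun_prop) (hK _).measurableSet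
  · refine liminf_le_of_frequently_le' (Frequently.of_forall fun ν => ?_)
    rw [lintegral_indicator (hK _).measurableSet]
    exact hb (s ν)

end Crest.Agent.R269.H
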