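import Crest.Agent.R269.A.Levi
import Crest.Agent.R271.H.Meas
import Crest.Agent.R271.T1.Meas

/-!
# Row 269, block H: `RDom` as an `R271.Dom` (sub-owner helper97)
-/

set_option autoImplicit false
set_option linter.unusedSectionVars false
set_option linter.unusedVariables false

open MeasureTheory Filter Topology Set
open scoped ENNReal ContDiff

noncomputable section

namespace Crest.Agent.R269.H

open Crest.Agent.R271 (Dom E)

/-- Euclidean norm to sup norm -/
def TT (n : ℕ) : Cn n ≃L[ℂ] E n := EuclideanSpace.equiv (Fin n) ℂ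

variable {n : ℕ} {D : RDom n} [MeasurableSpace D.M] [BorelSpace D.M] {D' : Dom n D.M}

/-- `D'` is the model of `D` -/
def Md (D : RDom n) [MeasurableSpace D.M] (D' : Dom n D.M) : Prop := ∀ y, D'.p y = TT n (D.π y)

/-- chart of `D` from a chart of `D'` -/
def dn (e : OpenPartialHomeomorph D.M (E n)) : OpenPartialHomeomorph D.M (Cn n) :=
  e.transHomeomorph (TT n).symm.toHomeomorph

/-- chart of `D'` from a chart of `D` -/
def up (e : OpenPartialHomeomorph D.M (Cn n)) : OpenPartialHomeomorph D.M (E n) :=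
  e.transHomeomorph (TT n).toHomeomorph

theorem dn_source (e : OpenPartialHomeomorph D.M (E n)) : (dn e).source = e.source := rfl
theorem dn_target (e : OpenPartialHomeomorph D.M (E n)) : (dn e).target = TT n ⁻¹' e.target := rfl
theorem dn_symm (e : OpenPartialHomeomorph D.M (E n)) (w : Cn n) : (dn e).symm w = e.symm (TT n w) := rfl
theorem dn_apply (e : OpenPartialHomeomorph D.M (E n)) (y : D.M) : dn e y = (TT n).symm (e y) := rfl
theorem up_source (e : OpenPartialHomeomorph D.M (Cn n)) : (up e).source = e.source := rfl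
theorem up_symm (e : OpenPartialHomeomorph D.M (Cn n)) (w : E n) : (up e).symm w = e.symm ((TT n).symm w) := rfl

theorem Md.dn (h : Md D D') {e : OpenPartialHomeomorph D.M (E n)} (he : D'.IsCh e) : D.IsCh (dn e) := fun y hy => by
  rw [dn_apply, he y hy, h, ContinuousLinearEquiv.symm_apply_apply]

theorem Md.up (h : Md D D') {e : OpenPartialHomeomorph D.M (Cn n)} (he : D.IsCh e) : D'.IsCh (up e) := fun y hy => by
  rw [h, ← he y hy]
  rfl

theorem exists_dom (D : RDom n) [MeasurableSpace D.M] [BorelSpace D.M] : ∃ D' : Dom n D.M, Md D D' := by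
  have hp : IsLocalHomeomorph fun y => TT n (D.π y) := (TT n).toHomeomorph.isLocalHomeomorph.comp D.loc
  obtain ⟨μ, hμ⟩ := R271.T1.exists_meas hp
  exact ⟨⟨_, hp, μ, hμ⟩, fun _ => rfl⟩

theorem Md.mem_nhds (h : Md D D') {W : Set D.M} (hW : IsOpen W) {y : D.M} (hy : y ∈ W) :
    (H.dn (D'.ch y)).target ∩ (H.dn (D'.ch y)).symm ⁻¹' W ∈ 𝓝 ((TT n).symm (D'.p y)) := by
  refine ((H.dn (D'.ch y)).isOpen_inter_preimage_symm hW).mem_nhds ⟨?_, ?_⟩
  · simpa [dn_target] using D'.ch_target y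
  · simpa [dn_symm] using hy

theorem comp_dn {α : Type} (g : D.M → α) (e : OpenPartialHomeomorph D.M (E n)) :
    g ∘ e.symm = (g ∘ (dn e).symm) ∘ (TT n).symm := by
  funext w
  simp [dn_symm]

theorem Md.cd (h : Md D D') {F : Type} [NormedAddCommGroup F] [NormedSpace ℝ F] {g : D.M → F} {W : Set D.M}
    (hg : D.SmOn g W) (hW : IsOpen W) {y : D.M} (hy : y ∈ W) : D'.CD ∞ g y := by
  have h1 := (hg _ (h.dn (D'.isCh y))).contDiffAt (h.mem_nhds hW hy)
  rw [Dom.CD, comp_dn]
  exact h1.comp _ ((TT n).symm.toContinuousLinearMap.restrictScalars ℝ).contDiff.contDiffAt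

theorem Md.levi_eq (h : Md D D') {Φ : D.M → ℝ} {y : D.M} (hΦ : D'.CD ∞ Φ y) (ξ : E n) :
    D'.levi Φ y ξ = levi (Φ ∘ (H.dn (D'.ch y)).symm) (H.dn (D'.ch y) y) ((TT n).symm ξ) := by
  have h2 : D'.CD 2 Φ y := hΦ.of_le (by norm_cast)
  have e1 : H.dn (D'.ch y) y = (TT n).symm (D'.p y) := by rw [dn_apply, D'.ch_eq]
  have h3 := levi_comp_hol (f := Φ ∘ (D'.ch y).symm) (φ := TT n) (x := (TT n).symm (D'.p y))
    (by rw [ContinuousLinearEquiv.apply_symm_apply]; exact h2) ((TT n).analyticAt _) ((TT n).symm ξ)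
  rw [(TT n).fderiv, ContinuousLinearEquiv.coe_coe, ContinuousLinearEquiv.apply_symm_apply,
    ContinuousLinearEquiv.apply_symm_apply] at h3
  rw [Dom.levi_eq h2, e1]
  exact h3.symm

theorem norm_le_symm (ξ : E n) : ‖ξ‖ ≤ ‖(TT n).symm ξ‖ :=
  (pi_norm_le_iff_of_nonneg (norm_nonneg _)).2 fun i => PiLp.norm_apply_le ((TT n).symm ξ) i

theorem levi_ge_of_indep {f : Cn n → ℝ} {x : Cn n} {lam : ℝ}
    (hv : ∀ v : Fin n → Cn n, LinearIndependent ℂ v → lam * ∑ j, ‖v j‖ ^ 2 ≤ ∑ j, levi f x (v j)) (ξ : Cn n) :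
    lam * ‖ξ‖ ^ 2 ≤ levi f x ξ := by
  classical
  rcases eq_or_ne ξ 0 with rfl | h0
  · have := levi_smul f x 0 0
    simp only [zero_smul, norm_zero] at this ⊢
    rw [this]
    simp
  obtain ⟨i, hi⟩ : ∃ i, ξ i ≠ 0 := by
    by_contra hne
    push Not at hne
    exact h0 (PiLp.ext hne)
  set b : Fin n → Cn n := Function.update (fun j => EuclideanSpace.single j 1) i ξ with hb
  have hli : LinearIndependent ℂ b := by
    rw [Fintype.linearIndependent_iff]
    intro c hc
    have key : ∀ k, c i * ξ k + (if k = i then 0 else c k) = 0 := fun k => by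
      have h1 := congrArg (fun w : Cn n => w k) hc
      simp only [← Finset.add_sum_erase _ _ (Finset.mem_univ i), hb, Function.update_self, PiLp.add_apply,
        PiLp.smul_apply, smul_eq_mul, PiLp.zero_apply, WithLp.ofLp_sum, Finset.sum_apply, WithLp.ofLp_smul,
        Pi.smul_apply] at h1
      have h2 : ∑ x ∈ Finset.univ.erase i, c x * (Function.update (fun j => EuclideanSpace.single j (1 : ℂ)) i ξ x) k
          = if k = i then 0 else c k := by
        rw [Finset.sum_congr rfl fun j hj => by rw [Function.update_of_ne (Finset.ne_of_mem_erase hj)]]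
        by_cases hk : k = i <;> simp [hk]
      rw [← h2]
      exact h1
    have hci : c i = 0 := by simpa [hi] using key i
    intro k
    by_cases hk : k = i
    · rw [hk, hci]
    · simpa [hci, hk] using key k
  have key : ∀ ε : ℝ, 0 < ε → lam * ‖ξ‖ ^ 2 ≤ levi f x ξ +
      ε ^ 2 * ∑ j ∈ Finset.univ.erase i, (levi f x (b j) - lam * ‖b j‖ ^ 2) := by
    intro ε hε
    have hε' : (ε : ℂ) ≠ 0 := by exact_mod_cast hε.ne'
    have h1 := hv _ (hli.units_smul fun j => if j = i then 1 else Units.mk0 (ε : ℂ) hε')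
    rw [← Finset.add_sum_erase _ _ (Finset.mem_univ i), ← Finset.add_sum_erase _ _ (Finset.mem_univ i)] at h1
    have e1 : ∀ j ∈ Finset.univ.erase i,
        ((fun j => if j = i then 1 else Units.mk0 (ε : ℂ) hε') • b) j = (ε : ℂ) • b j := fun j hj => by
      simp [Finset.ne_of_mem_erase hj]
    have e2 : ((fun j => if j = i then 1 else Units.mk0 (ε : ℂ) hε') • b) i = ξ := by simp [hb]
    have e3 : ∑ j ∈ Finset.univ.erase i, ‖((fun j => if j = i then 1 else Units.mk0 (ε : ℂ) hε') • b) j‖ ^ 2 =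
        ε ^ 2 * ∑ j ∈ Finset.univ.erase i, ‖b j‖ ^ 2 := by
      rw [Finset.mul_sum]
      refine Finset.sum_congr rfl fun j hj => ?_
      rw [e1 j hj, norm_smul, mul_pow, Complex.norm_real, Real.norm_eq_abs, sq_abs]
    have e4 : ∑ j ∈ Finset.univ.erase i, levi f x (((fun j => if j = i then 1 else Units.mk0 (ε : ℂ) hε') • b) j) =
        ε ^ 2 * ∑ j ∈ Finset.univ.erase i, levi f x (b j) := by
      rw [Finset.mul_sum]
      refine Finset.sum_congr rfl fun j hj => ?_
      rw [e1 j hj, levi_smul, Complex.norm_real, Real.norm_eq_abs, sq_abs]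
    rw [e2, e3, e4] at h1
    rw [Finset.sum_sub_distrib, ← Finset.mul_sum]
    linarith
  have ht : Tendsto (fun ε : ℝ => levi f x ξ +
      ε ^ 2 * ∑ j ∈ Finset.univ.erase i, (levi f x (b j) - lam * ‖b j‖ ^ 2)) (𝓝[>] 0) (𝓝 (levi f x ξ)) := by
    refine Tendsto.mono_left ?_ nhdsWithin_le_nhds
    exact Continuous.tendsto' (by fun_prop) _ _ (by simp)
  exact ge_of_tendsto ht (eventually_nhdsWithin_of_forall key)

theorem Md.levi_ge (h : Md D D') (hn : 1 ≤ n) {Φ : D.M → ℝ} {y : D.M} (hΦ : D'.CD ∞ Φ y) {lam : ℝ} (hl : 0 ≤ lam)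
    (hv : ∀ e, D.IsCh e → y ∈ e.source → ∀ v : Fin n → Cn n, LinearIndependent ℂ v →
      lam * ∑ j, ‖v j‖ ^ 2 ≤ ∑ j, levi (Φ ∘ e.symm) (e y) (v j)) (ξ : E n) :
    lam * ‖ξ‖ ^ 2 ≤ D'.levi Φ y ξ := by
  rw [h.levi_eq hΦ]
  refine le_trans ?_ (levi_ge_of_indep (hv _ (h.dn (D'.isCh y)) (D'.ch_source y)) _)
  exact mul_le_mul_of_nonneg_left (pow_le_pow_left₀ (norm_nonneg _) (norm_le_symm ξ) 2) hl

theorem Md.db_zero (h : Md D D') {g : D.M → ℂ} {W : Set D.M} (hg : D.HolOn g W) (hW : IsOpen W) {y : D.M}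
    (hy : y ∈ W) (ξ : E n) : D'.db g y ξ = 0 := by
  have h1 := (hg _ (h.dn (D'.isCh y))).differentiableAt (h.mem_nhds hW hy)
  refine Dom.db_of_hol ?_ ξ
  rw [comp_dn]
  exact h1.comp _ (TT n).symm.differentiableAt

theorem Md.holOn (h : Md D D') {f : D.M → ℂ} (hf : D'.Hol f) : D.HolOn f univ := by
  intro e he w hw
  have hs : e.symm w ∈ (H.up e).source := e.map_target hw.1
  have h1 := (hf _ (mem_univ (e.symm w))).congr_of_eventuallyEq ((h.up he).comp_eq hs f).symm
  rw [h, ← he _ hs, e.right_inv hw.1] at h1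
  have h2 := h1.comp w (TT n).differentiableAt
  have : f ∘ e.symm = (f ∘ (H.up e).symm) ∘ TT n := by
    funext x
    simp [up_symm]
  rw [this]
  exact h2.differentiableWithinAt

theorem Md.exh (h : Md D D') (hn : 1 ≤ n) {ρ : D.M → ℝ} (hρ : D.Exh ρ) : ∃ ρ' : D.M → ℝ, D'.Sm ρ' ∧
    (∀ y ξ, ‖ξ‖ ^ 2 ≤ D'.levi ρ' y ξ) ∧ ∀ r, IsCompact {y | ρ' y ≤ r} := by
  have hs : D'.Sm ρ := fun y => h.cd hρ.sm isOpen_univ (mem_univ y)
  have hq : D.SmOn (fun y => ‖D.π y‖ ^ 2) univ := fun e he =>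
    (contDiff_norm_sq ℂ (n := ∞)).contDiffOn.congr fun w hw => by
      simp only [Function.comp, ← he _ (e.map_target hw.1), e.right_inv hw.1]
  have hq' : D'.Sm fun y => ‖D.π y‖ ^ 2 := fun y => h.cd hq isOpen_univ (mem_univ y)
  refine ⟨fun y => ρ y + ‖D.π y‖ ^ 2, hs.add hq', fun y ξ => ?_, fun r => ?_⟩
  · have h1 := h.levi_ge hn (hs.cd y) le_rfl (fun e he hy v _ => by
      have hy' : e y ∈ e.target ∩ e.symm ⁻¹' univ := ⟨e.map_source hy, mem_univ _⟩
      simpa using (hρ.psh e he).classical hy' (((hρ.sm e he).contDiffAt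
        ((e.isOpen_inter_preimage_symm isOpen_univ).mem_nhds hy')).of_le (by norm_cast)) v) ξ
    have h2 := h.levi_ge hn (hq'.cd y) zero_le_one (fun e he hy v _ => by
      have : (fun y => ‖D.π y‖ ^ 2) ∘ e.symm =ᶠ[𝓝 (e y)] fun w => ‖w‖ ^ 2 := by
        filter_upwards [e.open_target.mem_nhds (e.map_source hy)] with w hw
        simp only [Function.comp, ← he _ (e.map_target hw), e.right_inv hw]
      simp only [levi_congr this, levi_norm_sq, one_mul, le_refl]) ξ
    rw [Dom.levi_add hs hq']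
    linarith
  · exact (hρ.cpt r).of_isClosed_subset (isClosed_le (hs.add hq').continuous continuous_const)
      fun y (hy : ρ y + ‖D.π y‖ ^ 2 ≤ r) => show ρ y ≤ r by nlinarith [sq_nonneg ‖D.π y‖]

end Crest.Agent.R269.H
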